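import Vale.Agent.Lib.P309.Main

namespace Vale.Agent.Results.P309.MemoryFloor

open MeasureTheory ProbabilityTheory Vale.Agent.Lib.P309

/-- Memory floor for noiseless regression: whatever produced the final state `J` (at most
`N ≤ 2^M` values, arbitrary joint law with the uniform signal `S`), an output drawn from a
kernel `κ` of the final state is within angle `ε` of `S` with probability at most
`N 2^(d+1) ε^(d-1)`, hence with probability `< 2/3` when `M + d + 2 ≤ (d-1) log₂(1/ε)`. -/
theorem result (d : ℕ) (hd : 2 ≤ d) (M N : ℕ) (hN : N ≤ 2 ^ M)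
    {Ω : Type*} [MeasurableSpace Ω] (P : Measure Ω)
    (S : Ω → Sph d) (hS : Measurable S) (hlaw : P.map S = sphereUniform d)
    (J : Ω → Fin N) (hJ : Measurable J)
    (κ : Kernel (Fin N) (Sph d)) [IsMarkovKernel κ]
    (ε : ℝ) (hε : 0 < ε) (hε1 : ε ≤ 1) :
    successProb P S J κ ε ≤ (N : ENNReal) * ENNReal.ofReal (2 ^ (d + 1) * ε ^ (d - 1)) ∧
    ((M : ℝ) + d + 2 ≤ ((d : ℝ) - 1) * Real.logb 2 (1 / ε) →
      successProb P S J κ ε < 2 / 3) := by
  have _hJ := hJ
  have h := success_le d (by omega) N P S hS hlaw J κ ε hε hε1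
  exact ⟨h, fun hM => lt_of_le_of_lt h (bound_lt d (by omega) M N hN ε hε hM)⟩

end Vale.Agent.Results.P309.MemoryFloor
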